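import Vale.Agent.P313.AC.H146.Tree
import Vale.Agent.P313.AC.H215.F7
import Vale.Agent.P313.AC.H95.SpecNF

/-!
The estimates are right (module F5).
-/

namespace Vale.Agent.P313.AC.H55

open Finset

variable {D : Dat} {x : List Bool}

theorem gm_eq {n l t i j : ℕ} (ht : t ≤ (D.p n).tm) (h : okp (D.p n).b l t i j) :
    gm D n l t i j = prc (D.p n).b l t i j := by
  unfold gm
  exact min_eq_left (H215.prc_le ht h)

theorem pow_gr (h : D.Ok) (n m : ℕ) : (D.p n).f ^ gr D m = gKb D n m := by
  unfold gr gKb gB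
  rw [(h.good n).hB, ← pow_mul]

/-- The root of a counting tree. -/
theorem vT_root (h : D.Ok) (l t i j sg u y K g hh : ℕ) :
    vT D x l t i j sg u y K g hh (gr D (prc (D.p x.length).b l t i j)) 0 =
      nbk (D.p x.length).P (gK0 D x.length (prc (D.p x.length).b l t i j))
        (gKb D x.length (prc (D.p x.length).b l t i j)) (vZ D x l i j sg u y) K g hh := by
  classical
  unfold vT nbk
  rw [pow_gr h, zero_mul, zero_add, one_mul]
  congr 1
  ext w
  rw [mem_filter, mem_filter, mem_Ico, mem_range]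
  exact and_congr_left' (by simp)

theorem opTs_iff (hD : D.Ok) {T : ℕ} {X : (Fin 14 → ℕ) → Prop} (hI : Inv D x X T)
    {l t i j sg u y v K : ℕ} (hl : l + 1 ≤ (D.p x.length).L) (ht : t ≤ (D.p x.length).tm)
    (hok : okp (D.p x.length).b l t i j) (hsg : sg < 2) (hu : u < (D.p x.length).N)
    (hy : y < (D.p x.length).N) (hr : rE D x l t i j ≤ T + 1) (hK : K ≤ (D.p x.length).U) :
    opTs D x X (aE l t i j sg u y v) K ↔
      Tst (D.p x.length).P (D.p x.length).τ (gBm D x.length (prc (D.p x.length).b l t i j))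
        (gK0 D x.length (prc (D.p x.length).b l t i j))
        (gKb D x.length (prc (D.p x.length).b l t i j)) (vZ D x l i j sg u y) K := by
  have B := H215.bd hD x.length
  have hP := (hD.good x.length).hP
  have hgm := gm_eq ht hok
  have hKb := B.Kb _ (H215.prc_le ht hok)
  have h40 : 40 ≤ (x.length + 2) ^ D.e := by
    have hP2 : 2 ≤ (D.p x.length).P := hP.two_le
    have hR : 4 ≤ gR D x.length := by
      have h1 : (D.p x.length).P ^ 2 ≤ gR D x.length := by
        unfold gR
        exact Nat.le_mul_of_pos_right _ (by positivity)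
      nlinarith
    calc 40 ≤ 4 ^ 40 := by norm_num
      _ ≤ gR D x.length ^ 40 := Nat.pow_le_pow_left hR 40
      _ ≤ _ := B.R40
  have hX : ∀ g < (D.p x.length).P ^ 2, ∀ h < (D.p x.length).P ^ 2, ∀ c < (x.length + 2) ^ D.e,
      (X (aT l t i j sg u y K g h (gr D (prc (D.p x.length).b l t i j)) 0 c) ↔
        c = nbk (D.p x.length).P (gK0 D x.length (prc (D.p x.length).b l t i j))
        (gKb D x.length (prc (D.p x.length).b l t i j)) (vZ D x l i j sg u y) K g h) := by
    intro g hg h hh c hc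
    rw [← vT_root hD]
    refine hI.cT l t i j sg u y K g h _ 0 c hl ht hok hsg hu hy hK hg hh ?_ hc ?_
    · rw [pow_gr hD]; omega
    · unfold rE at hr
      unfold rT
      omega
  unfold opTs Tst Amp
  simp only [aE, Matrix.cons_val]
  rw [hgm]
  constructor
  · rintro ⟨w, _, hw, H⟩
    refine ⟨w, hw, fun r hr' => ?_⟩
    obtain ⟨i', _, hi', j', _, hj', h, _, hh, c, hc, hcc, hXX⟩ :=
      H r (lt_of_lt_of_le hr' B.R) hr'
    refine ⟨i', hi', j', hj', h, hh, ?_⟩
    rw [hX _ (mwk_lt hP.pos _ _) h hh c hc] at hXX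
    rw [hXX] at hcc
    exact hcc
  · rintro ⟨w, hw, H⟩
    refine ⟨w, lt_of_lt_of_le hw B.R40, hw, fun r _ hr' => ?_⟩
    obtain ⟨i', hi', j', hj', h, hh, hc⟩ := H r hr'
    have hn := H146.nbk_le (D.p x.length).P (gK0 D x.length (prc (D.p x.length).b l t i j))
      (gKb D x.length (prc (D.p x.length).b l t i j)) (vZ D x l i j sg u y) K
      (mwk (D.p x.length).P ((r + w / gR D x.length ^ i') % gR D x.length) j') h
    refine ⟨i', by omega, hi', j', by have := B.τ; omega, hj', h, lt_of_lt_of_le hh B.P2, hh, _,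
      lt_of_le_of_lt hn hKb, hc, ?_⟩
    rw [hX _ (mwk_lt hP.pos _ _) h hh _ (lt_of_le_of_lt hn hKb)]

theorem modF5 : ModF5 := by
  classical
  intro D x hD hB T X hI l t i j sg u y v hl ht hok hsg hu hy hv hr
  have B := H215.bd hD x.length
  have key := fun {K : ℕ} (hK : K ≤ (D.p x.length).U) =>
    opTs_iff (v := v) hD hI hl ht hok hsg hu hy hr hK
  have h1 : opF D x X (aE l t i j sg u y v) ↔ opE D x X (aE l t i j sg u y v) := by
    unfold opF
    simp [aE]
  rw [h1]
  have h2 : v = vE D x l t i j sg u y ↔ vE D x l t i j sg u y = v := eq_comm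
  rw [h2]
  have h3 : vE D x l t i j sg u y = est (D.p x.length).P (D.p x.length).τ
      (gBm D x.length (prc (D.p x.length).b l t i j))
      (gK0 D x.length (prc (D.p x.length).b l t i j))
      (gKb D x.length (prc (D.p x.length).b l t i j)) (D.p x.length).U
      (vZ D x l i j sg u y) := rfl
  rw [h3, H146.est_iff]
  have h13 : aE l t i j sg u y v 13 = v := by simp [aE]
  unfold opE
  rw [h13]
  constructor
  · rintro ⟨a1, a2, a3⟩
    refine ⟨a1, fun h0 => ?_, fun K hK hKU => ?_⟩
    · rcases a2 with a2 | a2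
      · exact absurd a2 h0
      · exact (key a1).1 a2
    · rw [← key hKU]
      exact a3 K (lt_of_le_of_lt hKU B.U) hKU hK
  · rintro ⟨a1, a2, a3⟩
    refine ⟨a1, ?_, fun K _ hKU hK => ?_⟩
    · by_cases h0 : v = 0
      · exact Or.inl h0
      · exact Or.inr ((key a1).2 (a2 h0))
    · rw [key hKU]
      exact a3 K hK hKU

end Vale.Agent.P313.AC.H55
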